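import Vale.Agent.Lib.P172.Defs

namespace Vale.Agent.Lib.P172

open Set

theorem isGeometricAction_compHom {G H X : Type*} [Group G] [Group H] [MetricSpace X]
    [MulAction H X] (φ : G →* H) (hker : (φ.ker : Set G).Finite) (hidx : φ.range.FiniteIndex)
    (h : IsGeometricAction H X) :
    @IsGeometricAction G X _ _ (MulAction.compHom X φ) := by
  let _inst : MulAction G X := MulAction.compHom X φ
  have hsmul : ∀ (g : G) (x : X), g • x = φ g • x := fun g x => rfl
  obtain ⟨hiso, hprop, K, hK, hcov⟩ := h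
  refine ⟨fun g => ?_, fun L hL => ?_, ?_⟩
  · exact hiso (φ g)
  · have hfin := hprop L hL
    have : {g : G | ∃ x ∈ L, g • x ∈ L} = φ ⁻¹' {h : H | ∃ x ∈ L, h • x ∈ L} := by
      ext g; simp [hsmul]
    rw [this]
    refine hfin.preimage' ?_
    intro b _
    by_cases hb : ∃ g₀, φ g₀ = b
    · obtain ⟨g₀, rfl⟩ := hb
      refine (hker.image (fun k => g₀ * k)).subset ?_
      intro g hg
      refine ⟨g₀⁻¹ * g, ?_, by simp⟩
      simp only [mem_preimage, mem_singleton_iff] at hg
      simp [MonoidHom.mem_ker, hg]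
    · convert Set.finite_empty
      ext g
      simp only [mem_preimage, mem_singleton_iff, mem_empty_iff_false, iff_false]
      exact fun hg => hb ⟨g, hg⟩
  · have _fin : Finite (H ⧸ φ.range) := Subgroup.finite_quotient_of_finiteIndex
    refine ⟨⋃ q : H ⧸ φ.range, (fun x : X => (q.out)⁻¹ • x) '' K, ?_, ?_⟩
    · exact isCompact_iUnion fun q => hK.image (hiso _).continuous
    · intro x
      obtain ⟨h, hh⟩ := hcov x
      obtain ⟨k, hk⟩ := QuotientGroup.mk_out_eq_mul φ.range h
      have : (QuotientGroup.mk h : H ⧸ φ.range).out⁻¹ * h ∈ φ.range := by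
        rw [hk]
        have : (h * (k : H))⁻¹ * h = (k : H)⁻¹ := by group
        rw [this]
        exact inv_mem k.2
      obtain ⟨g, hg⟩ := this
      refine ⟨g, mem_iUnion.2 ⟨QuotientGroup.mk h, h • x, hh, ?_⟩⟩
      simp only [hsmul, hg, mul_smul]

end Vale.Agent.Lib.P172
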