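import Mathlib

/-!
# P172: CAT(0) and CAT(-1) groups -- basic definitions

Everything is phrased with plain metric-space notions so that the statements can be read
without any further library.
-/

namespace Vale.Agent.Lib.P172

open Set

/-- `γ` restricted to `[0, L]` is a geodesic segment of length `L`:
an isometric embedding of the interval `[0, L]`. -/
def IsGeodesic {X : Type*} [MetricSpace X] (γ : ℝ → X) (L : ℝ) : Prop :=
  ∀ s ∈ Icc (0 : ℝ) L, ∀ t ∈ Icc (0 : ℝ) L, dist (γ s) (γ t) = |s - t|

/-- `γ` is a geodesic segment from `p` to `q`, parametrised by arc length on `[0, dist p q]`. -/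
def IsGeodesicFromTo {X : Type*} [MetricSpace X] (γ : ℝ → X) (p q : X) : Prop :=
  IsGeodesic γ (dist p q) ∧ γ 0 = p ∧ γ (dist p q) = q

/-- A geodesic metric space: any two points are joined by a geodesic segment. -/
def IsGeodesicSpace (X : Type*) [MetricSpace X] : Prop :=
  ∀ p q : X, ∃ γ : ℝ → X, IsGeodesicFromTo γ p q

/-- CAT(0): a geodesic space in which geodesic triangles are no fatter than their Euclidean
comparison triangles.  For a triangle with vertices `p, q, r`, a point `x = γ₁ s` on a side
`[p, q]` and a point `y = γ₂ t` on a side `[p, r]`, the comparison points in the Euclidean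
comparison triangle are at squared distance
`s² + t² - s t (a² + b² - c²) / (a b)` (law of cosines), where `a = d(p,q)`, `b = d(p,r)`,
`c = d(q,r)`.  The inequality below is `d(x,y)² ≤` this quantity, multiplied through by `a b`.
Since any two distinct sides of a triangle share a vertex, this is the usual CAT(0) inequality. -/
def IsCAT0 (X : Type*) [MetricSpace X] : Prop :=
  IsGeodesicSpace X ∧
  ∀ (p q r : X) (γ₁ γ₂ : ℝ → X), IsGeodesicFromTo γ₁ p q → IsGeodesicFromTo γ₂ p r →
    ∀ s ∈ Icc (0 : ℝ) (dist p q), ∀ t ∈ Icc (0 : ℝ) (dist p r),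
      dist p q * dist p r * dist (γ₁ s) (γ₂ t) ^ 2 ≤
        dist p q * dist p r * (s ^ 2 + t ^ 2)
          - s * t * (dist p q ^ 2 + dist p r ^ 2 - dist q r ^ 2)

/-- CAT(-1): the same with comparison triangles in the hyperbolic plane.  By the hyperbolic law
of cosines the comparison points are at distance `D` with
`cosh D = cosh s cosh t - sinh s sinh t (cosh a cosh b - cosh c) / (sinh a sinh b)`.
The inequality below is `cosh d(x,y) ≤ cosh D`, multiplied through by `sinh a sinh b`. -/
def IsCATNegOne (X : Type*) [MetricSpace X] : Prop :=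
  IsGeodesicSpace X ∧
  ∀ (p q r : X) (γ₁ γ₂ : ℝ → X), IsGeodesicFromTo γ₁ p q → IsGeodesicFromTo γ₂ p r →
    ∀ s ∈ Icc (0 : ℝ) (dist p q), ∀ t ∈ Icc (0 : ℝ) (dist p r),
      Real.sinh (dist p q) * Real.sinh (dist p r) * Real.cosh (dist (γ₁ s) (γ₂ t)) ≤
        Real.sinh (dist p q) * Real.sinh (dist p r) * Real.cosh s * Real.cosh t
          - Real.sinh s * Real.sinh t *
            (Real.cosh (dist p q) * Real.cosh (dist p r) - Real.cosh (dist q r))

/-- A geometric action: by isometries, properly discontinuous (for every compact `K` only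
finitely many group elements `g` satisfy `g K ∩ K ≠ ∅`) and cocompact (the translates of some
compact set cover the space). -/
def IsGeometricAction (G : Type*) (X : Type*) [Group G] [MetricSpace X] [MulAction G X] : Prop :=
  (∀ g : G, Isometry (fun x : X => g • x)) ∧
  (∀ K : Set X, IsCompact K → {g : G | ∃ x ∈ K, g • x ∈ K}.Finite) ∧
  ∃ K : Set X, IsCompact K ∧ ∀ x : X, ∃ g : G, g • x ∈ K

/-- `G` is a CAT(0) group: it acts geometrically on a (nonempty) proper CAT(0) space. -/
def IsCAT0Group (G : Type*) [Group G] : Prop :=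
  ∃ (X : Type) (_ : MetricSpace X) (_ : MulAction G X),
    Nonempty X ∧ ProperSpace X ∧ IsCAT0 X ∧ IsGeometricAction G X

/-- `G` is a CAT(-1) group: it acts geometrically on a (nonempty) proper CAT(-1) space. -/
def IsCATNegOneGroup (G : Type*) [Group G] : Prop :=
  ∃ (X : Type) (_ : MetricSpace X) (_ : MulAction G X),
    Nonempty X ∧ ProperSpace X ∧ IsCATNegOne X ∧ IsGeometricAction G X

end Vale.Agent.Lib.P172
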