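import Vale.Agent.Lib.P172.Geodesics

/-!
# P172: fixed points of finite groups of isometries of proper CAT(0) / CAT(-1) spaces
-/

namespace Vale.Agent.Lib.P172

open Set

/-- Abstract fixed point lemma: an invariant continuous function with bounded sublevel sets on a
proper space which is strictly decreased at some point for any two distinct points has a fixed
point (its unique minimiser). -/
theorem exists_fixed_of_strict_midpoint {Γ X : Type*} [Group Γ] [MetricSpace X] [ProperSpace X]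
    [Nonempty X] [MulAction Γ X] (F : X → ℝ) (hFc : Continuous F)
    (hFinv : ∀ (g : Γ) (y : X), F (g • y) = F y)
    (hFb : ∀ c : ℝ, Bornology.IsBounded {y | F y ≤ c})
    (hFm : ∀ y₁ y₂ : X, y₁ ≠ y₂ → ∃ m, F m < max (F y₁) (F y₂)) :
    ∃ y : X, ∀ g : Γ, g • y = y := by
  obtain ⟨x₀⟩ := ‹Nonempty X›
  have hS : IsCompact {y | F y ≤ F x₀} :=
    Metric.isCompact_of_isClosed_isBounded (isClosed_le hFc continuous_const) (hFb _)
  obtain ⟨y, hy, hmin⟩ := hS.exists_isMinOn ⟨x₀, le_refl (F x₀)⟩ hFc.continuousOn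
  have hglob : ∀ z, F y ≤ F z := by
    intro z
    by_cases hz : F z ≤ F x₀
    · exact hmin hz
    · exact le_trans hy (le_of_lt (not_le.1 hz))
  refine ⟨y, fun g => ?_⟩
  by_contra hne
  obtain ⟨m, hm⟩ := hFm (g • y) y hne
  rw [hFinv, max_self] at hm
  exact absurd (hglob m) (not_le.2 hm)

/-- A finite group of isometries of a nonempty proper CAT(0) space has a fixed point. -/
theorem IsCAT0.exists_fixed_point {Γ X : Type*} [Group Γ] [Finite Γ] [MetricSpace X]
    [ProperSpace X] [Nonempty X] [MulAction Γ X] (h : IsCAT0 X)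
    (hiso : ∀ g : Γ, Isometry (fun x : X => g • x)) : ∃ y : X, ∀ g : Γ, g • y = y := by
  classical
  have _ft : Fintype Γ := Fintype.ofFinite Γ
  obtain ⟨x₀⟩ := ‹Nonempty X›
  have hcard : (1 : ℝ) ≤ Fintype.card Γ := by
    exact_mod_cast Fintype.card_pos
  refine exists_fixed_of_strict_midpoint (Γ := Γ) (fun y => ∑ g : Γ, dist y (g • x₀) ^ 2) ?_ ?_ ?_ ?_
  · exact continuous_finsetSum _ fun g _ => (continuous_id.dist continuous_const).pow 2
  · intro g y
    rw [← Equiv.sum_comp (Equiv.mulLeft g)]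
    refine Finset.sum_congr rfl fun k _ => ?_
    simp only [Equiv.coe_mulLeft, mul_smul]
    rw [(hiso g).dist_eq]
  · intro c
    refine (Metric.isBounded_closedBall (x := x₀) (r := c + 1)).subset ?_
    intro y hy
    simp only [mem_ofPred_eq] at hy
    have h1 : dist y ((1 : Γ) • x₀) ^ 2 ≤ ∑ g : Γ, dist y (g • x₀) ^ 2 :=
      Finset.single_le_sum (f := fun g : Γ => dist y (g • x₀) ^ 2)
        (fun g _ => sq_nonneg _) (Finset.mem_univ 1)
    rw [one_smul] at h1
    rw [Metric.mem_closedBall]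
    nlinarith [sq_nonneg (dist y x₀ - 1 / 2)]
  · intro y₁ y₂ hne
    obtain ⟨γ, hγ⟩ := h.1 y₁ y₂
    have hd : 0 < dist y₁ y₂ := dist_pos.2 hne
    refine ⟨γ (dist y₁ y₂ / 2), ?_⟩
    have h1 : ∑ g : Γ, dist (γ (dist y₁ y₂ / 2)) (g • x₀) ^ 2 ≤
        ∑ g : Γ, ((dist y₁ (g • x₀) ^ 2 + dist y₂ (g • x₀) ^ 2) / 2 - dist y₁ y₂ ^ 2 / 4) := by
      refine Finset.sum_le_sum fun g _ => ?_
      have := h.midpoint_ineq (g • x₀) y₁ y₂ γ hγ
      rw [dist_comm (g • x₀) (γ _), dist_comm (g • x₀) y₁, dist_comm (g • x₀) y₂] at this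
      exact this
    have h2 : ∑ g : Γ, ((dist y₁ (g • x₀) ^ 2 + dist y₂ (g • x₀) ^ 2) / 2 - dist y₁ y₂ ^ 2 / 4)
        = ((∑ g : Γ, dist y₁ (g • x₀) ^ 2) + (∑ g : Γ, dist y₂ (g • x₀) ^ 2)) / 2
          - Fintype.card Γ * (dist y₁ y₂ ^ 2 / 4) := by
      rw [Finset.sum_sub_distrib, ← Finset.sum_div, Finset.sum_add_distrib, Finset.sum_const,
        Finset.card_univ, nsmul_eq_mul]
    rw [h2] at h1
    have h3 : 0 < dist y₁ y₂ ^ 2 / 4 := by positivity
    have h4 : dist y₁ y₂ ^ 2 / 4 ≤ Fintype.card Γ * (dist y₁ y₂ ^ 2 / 4) := by nlinarith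
    rcases le_total (∑ g : Γ, dist y₁ (g • x₀) ^ 2) (∑ g : Γ, dist y₂ (g • x₀) ^ 2) with h5 | h5
    · rw [max_eq_right h5]; linarith
    · rw [max_eq_left h5]; linarith

/-- A finite group of isometries of a nonempty proper CAT(-1) space has a fixed point. -/
theorem IsCATNegOne.exists_fixed_point {Γ X : Type*} [Group Γ] [Finite Γ] [MetricSpace X]
    [ProperSpace X] [Nonempty X] [MulAction Γ X] (h : IsCATNegOne X)
    (hiso : ∀ g : Γ, Isometry (fun x : X => g • x)) : ∃ y : X, ∀ g : Γ, g • y = y := by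
  classical
  have _ft : Fintype Γ := Fintype.ofFinite Γ
  obtain ⟨x₀⟩ := ‹Nonempty X›
  refine exists_fixed_of_strict_midpoint (Γ := Γ)
    (fun y => ∑ g : Γ, Real.cosh (dist y (g • x₀))) ?_ ?_ ?_ ?_
  · exact continuous_finsetSum _ fun g _ =>
      Real.continuous_cosh.comp (continuous_id.dist continuous_const)
  · intro g y
    rw [← Equiv.sum_comp (Equiv.mulLeft g)]
    refine Finset.sum_congr rfl fun k _ => ?_
    simp only [Equiv.coe_mulLeft, mul_smul]
    rw [(hiso g).dist_eq]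
  · intro c
    refine (Metric.isBounded_closedBall (x := x₀) (r := 2 * c)).subset ?_
    intro y hy
    simp only [mem_ofPred_eq] at hy
    have h1 : Real.cosh (dist y ((1 : Γ) • x₀)) ≤ ∑ g : Γ, Real.cosh (dist y (g • x₀)) :=
      Finset.single_le_sum (f := fun g : Γ => Real.cosh (dist y (g • x₀)))
        (fun g _ => (Real.cosh_pos _).le) (Finset.mem_univ 1)
    rw [one_smul] at h1
    rw [Metric.mem_closedBall]
    have h2 := Real.add_one_le_exp (dist y x₀)
    have h3 := Real.cosh_eq (dist y x₀)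
    have h4 := Real.exp_pos (-dist y x₀)
    linarith
  · intro y₁ y₂ hne
    obtain ⟨γ, hγ⟩ := h.1 y₁ y₂
    have hd : 0 < dist y₁ y₂ := dist_pos.2 hne
    refine ⟨γ (dist y₁ y₂ / 2), ?_⟩
    have hc : 1 < Real.cosh (dist y₁ y₂ / 2) := Real.one_lt_cosh.2 (by linarith)
    have h1 : ∑ g : Γ, 2 * Real.cosh (dist y₁ y₂ / 2) * Real.cosh (dist (γ (dist y₁ y₂ / 2)) (g • x₀))
        ≤ ∑ g : Γ, (Real.cosh (dist y₁ (g • x₀)) + Real.cosh (dist y₂ (g • x₀))) := by
      refine Finset.sum_le_sum fun g _ => ?_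
      have := h.midpoint_ineq (g • x₀) y₁ y₂ γ hγ
      rw [dist_comm (g • x₀) (γ _), dist_comm (g • x₀) y₁, dist_comm (g • x₀) y₂] at this
      exact this
    rw [← Finset.mul_sum, Finset.sum_add_distrib] at h1
    have hpos : 0 < ∑ g : Γ, Real.cosh (dist (γ (dist y₁ y₂ / 2)) (g • x₀)) :=
      Finset.sum_pos (fun g _ => Real.cosh_pos _) ⟨1, Finset.mem_univ 1⟩
    set A := ∑ g : Γ, Real.cosh (dist (γ (dist y₁ y₂ / 2)) (g • x₀))
    set B₁ := ∑ g : Γ, Real.cosh (dist y₁ (g • x₀))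
    set B₂ := ∑ g : Γ, Real.cosh (dist y₂ (g • x₀))
    have h2 : 2 * A < 2 * Real.cosh (dist y₁ y₂ / 2) * A := by nlinarith
    rcases le_total B₁ B₂ with h5 | h5
    · rw [max_eq_right h5]; linarith
    · rw [max_eq_left h5]; linarith

end Vale.Agent.Lib.P172
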