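import Vale.Agent.Lib.P172.Defs

/-!
# P172: uniqueness of geodesics and midpoint inequalities in CAT(0) and CAT(-1) spaces
-/

namespace Vale.Agent.Lib.P172

open Set

variable {X : Type*} [MetricSpace X]

/-- Geodesic segments between two given points are unique. -/
def UniqueGeodesics (X : Type*) [MetricSpace X] : Prop :=
  ∀ (p q : X) (γ₁ γ₂ : ℝ → X), IsGeodesicFromTo γ₁ p q → IsGeodesicFromTo γ₂ p q →
    ∀ s ∈ Icc (0 : ℝ) (dist p q), γ₁ s = γ₂ s

theorem IsCAT0.uniqueGeodesics (h : IsCAT0 X) : UniqueGeodesics X := by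
  intro p q γ₁ γ₂ h₁ h₂ s hs
  have key := h.2 p q q γ₁ γ₂ h₁ h₂ s hs s hs
  simp only [dist_self] at key
  rcases eq_or_lt_of_le (dist_nonneg (x := p) (y := q)) with h0 | h0
  · have hs0 : s = 0 := le_antisymm (h0 ▸ hs.2) hs.1
    rw [hs0, h₁.2.1, h₂.2.1]
  · have h1 : dist p q * dist p q * dist (γ₁ s) (γ₂ s) ^ 2 ≤ 0 := by nlinarith
    have h2 : 0 < dist p q * dist p q := mul_pos h0 h0
    have h3 : dist (γ₁ s) (γ₂ s) ^ 2 ≤ 0 := by
      by_contra hc
      rw [not_le] at hc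
      nlinarith
    have h4 : dist (γ₁ s) (γ₂ s) = 0 := by
      nlinarith [dist_nonneg (x := γ₁ s) (y := γ₂ s)]
    exact dist_eq_zero.1 h4

theorem IsCATNegOne.uniqueGeodesics (h : IsCATNegOne X) : UniqueGeodesics X := by
  intro p q γ₁ γ₂ h₁ h₂ s hs
  have key := h.2 p q q γ₁ γ₂ h₁ h₂ s hs s hs
  simp only [dist_self, Real.cosh_zero] at key
  rcases eq_or_lt_of_le (dist_nonneg (x := p) (y := q)) with h0 | h0
  · have hs0 : s = 0 := le_antisymm (h0 ▸ hs.2) hs.1
    rw [hs0, h₁.2.1, h₂.2.1]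
  · have hsh : 0 < Real.sinh (dist p q) := Real.sinh_pos_iff.2 h0
    have ha := Real.cosh_sq (dist p q)
    have hb := Real.cosh_sq s
    set A := Real.sinh (dist p q)
    set C := Real.cosh (dist p q)
    set D := Real.cosh (dist (γ₁ s) (γ₂ s))
    have h1 : A * A * D ≤ A * A := by nlinarith
    have h2 : D ≤ 1 := by
      by_contra hc
      rw [not_le] at hc
      nlinarith [mul_pos hsh hsh]
    by_contra hne
    have : 1 < Real.cosh (dist (γ₁ s) (γ₂ s)) :=
      Real.one_lt_cosh.2 (fun h0' => hne (dist_eq_zero.1 h0'))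
    exact absurd h2 (not_le.2 this)

/-- The CN inequality of Bruhat and Tits: in a CAT(0) space, for the midpoint `m` of a geodesic
from `q` to `r` and any point `p`,
`d(p,m)² ≤ (d(p,q)² + d(p,r)²)/2 - d(q,r)²/4`. -/
theorem IsCAT0.midpoint_ineq (h : IsCAT0 X) (p q r : X) (γ : ℝ → X)
    (hγ : IsGeodesicFromTo γ q r) :
    dist p (γ (dist q r / 2)) ^ 2 ≤ (dist p q ^ 2 + dist p r ^ 2) / 2 - dist q r ^ 2 / 4 := by
  obtain ⟨γ₂, hγ₂⟩ := h.1 q p
  have ha : 0 ≤ dist q r := dist_nonneg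
  have hb : 0 ≤ dist q p := dist_nonneg
  have hs : dist q r / 2 ∈ Icc (0 : ℝ) (dist q r) := ⟨by linarith, by linarith⟩
  have ht : dist q p ∈ Icc (0 : ℝ) (dist q p) := ⟨hb, le_refl _⟩
  have key := h.2 q r p γ γ₂ hγ hγ₂ _ hs _ ht
  rw [hγ₂.2.2] at key
  rw [dist_comm p (γ _), dist_comm p q, dist_comm p r]
  rcases eq_or_lt_of_le ha with h0 | h0
  · -- q = r
    have hqr : q = r := dist_eq_zero.1 h0.symm
    subst hqr
    rw [← h0]
    simp only [zero_div, hγ.2.1]
    nlinarith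
  rcases eq_or_lt_of_le hb with h0' | h0'
  · -- p = q
    have hqp : q = p := dist_eq_zero.1 h0'.symm
    subst hqp
    have := hγ.1 0 ⟨le_refl _, ha⟩ _ hs
    rw [hγ.2.1] at this
    rw [dist_comm (γ _) q, this]
    simp only [dist_self]
    rw [zero_sub, abs_neg, abs_of_nonneg (by linarith), dist_comm r q]
    nlinarith
  · have hab : 0 < dist q r * dist q p := mul_pos h0 h0'
    set a := dist q r
    set b := dist q p
    set c := dist r p
    set d := dist (γ (a / 2)) p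
    have h1 : a * b * d ^ 2 ≤ a * b * ((b ^ 2 + c ^ 2) / 2 - a ^ 2 / 4) := by
      have : a * b * ((a / 2) ^ 2 + b ^ 2) - a / 2 * b * (a ^ 2 + b ^ 2 - c ^ 2)
          = a * b * ((b ^ 2 + c ^ 2) / 2 - a ^ 2 / 4) := by ring
      linarith
    exact le_of_mul_le_mul_left h1 hab

/-- The hyperbolic analogue of the CN inequality: in a CAT(-1) space, for the midpoint `m` of a
geodesic from `q` to `r` and any point `p`,
`2 cosh(d(q,r)/2) cosh d(p,m) ≤ cosh d(p,q) + cosh d(p,r)`. -/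
theorem IsCATNegOne.midpoint_ineq (h : IsCATNegOne X) (p q r : X) (γ : ℝ → X)
    (hγ : IsGeodesicFromTo γ q r) :
    2 * Real.cosh (dist q r / 2) * Real.cosh (dist p (γ (dist q r / 2)))
      ≤ Real.cosh (dist p q) + Real.cosh (dist p r) := by
  obtain ⟨γ₂, hγ₂⟩ := h.1 q p
  have ha : 0 ≤ dist q r := dist_nonneg
  have hb : 0 ≤ dist q p := dist_nonneg
  have hs : dist q r / 2 ∈ Icc (0 : ℝ) (dist q r) := ⟨by linarith, by linarith⟩
  have ht : dist q p ∈ Icc (0 : ℝ) (dist q p) := ⟨hb, le_refl _⟩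
  have key := h.2 q r p γ γ₂ hγ hγ₂ _ hs _ ht
  rw [hγ₂.2.2] at key
  rw [dist_comm p (γ _), dist_comm p q, dist_comm p r]
  rcases eq_or_lt_of_le ha with h0 | h0
  · have hqr : q = r := dist_eq_zero.1 h0.symm
    subst hqr
    rw [← h0]
    simp only [zero_div, hγ.2.1, Real.cosh_zero]
    linarith
  rcases eq_or_lt_of_le hb with h0' | h0'
  · have hqp : q = p := dist_eq_zero.1 h0'.symm
    subst hqp
    have := hγ.1 0 ⟨le_refl _, ha⟩ _ hs
    rw [hγ.2.1] at this
    rw [dist_comm (γ _) q, this]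
    simp only [dist_self, Real.cosh_zero]
    rw [zero_sub, abs_neg, abs_of_nonneg (by linarith), dist_comm r q]
    have h2 : Real.cosh (dist q r) = Real.cosh (dist q r / 2) ^ 2 + Real.sinh (dist q r / 2) ^ 2 := by
      rw [← Real.cosh_two_mul]; congr 1; ring
    have h3 := Real.cosh_sq (dist q r / 2)
    nlinarith
  · have hsa : 0 < Real.sinh (dist q r / 2) := Real.sinh_pos_iff.2 (by linarith)
    have hsb : 0 < Real.sinh (dist q p) := Real.sinh_pos_iff.2 h0'
    have e1 : Real.sinh (dist q r) = 2 * Real.sinh (dist q r / 2) * Real.cosh (dist q r / 2) := by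
      rw [← Real.sinh_two_mul]; congr 1; ring
    have e2 : Real.cosh (dist q r) = Real.cosh (dist q r / 2) ^ 2 + Real.sinh (dist q r / 2) ^ 2 := by
      rw [← Real.cosh_two_mul]; congr 1; ring
    have e3 := Real.cosh_sq (dist q r / 2)
    rw [e1, e2] at key
    set S := Real.sinh (dist q r / 2)
    set C := Real.cosh (dist q r / 2)
    set Sb := Real.sinh (dist q p)
    set Cb := Real.cosh (dist q p)
    set Cc := Real.cosh (dist r p)
    set D := Real.cosh (dist (γ (dist q r / 2)) p)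
    have h1 : (S * Sb) * (2 * C * D) ≤ (S * Sb) * (Cb + Cc) := by
      have : 2 * S * C * Sb * C * Cb - S * Sb * ((C ^ 2 + S ^ 2) * Cb - Cc)
          = (S * Sb) * (Cb + Cc) + S * Sb * Cb * (C ^ 2 - S ^ 2 - 1) := by ring
      have h5 : C ^ 2 - S ^ 2 - 1 = 0 := by linarith
      rw [h5, mul_zero, add_zero] at this
      nlinarith
    exact le_of_mul_le_mul_left h1 (mul_pos hsa hsb)

end Vale.Agent.Lib.P172
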