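import Vale.Agent.Lib.P172.QuotientAction

/-!
# P172: CAT(0) / CAT(-1) groups and finite normal subgroups
-/

namespace Vale.Agent.Lib.P172

theorem isCAT0Group_of_hom {G H : Type*} [Group G] [Group H] (φ : G →* H)
    (hker : (φ.ker : Set G).Finite) (hidx : φ.range.FiniteIndex) (h : IsCAT0Group H) :
    IsCAT0Group G := by
  obtain ⟨X, iM, iA, hne, hproper, hcat, hgeo⟩ := h
  exact ⟨X, iM, MulAction.compHom X φ, hne, hproper, hcat,
    isGeometricAction_compHom φ hker hidx hgeo⟩

theorem isCATNegOneGroup_of_hom {G H : Type*} [Group G] [Group H] (φ : G →* H)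
    (hker : (φ.ker : Set G).Finite) (hidx : φ.range.FiniteIndex) (h : IsCATNegOneGroup H) :
    IsCATNegOneGroup G := by
  obtain ⟨X, iM, iA, hne, hproper, hcat, hgeo⟩ := h
  exact ⟨X, iM, MulAction.compHom X φ, hne, hproper, hcat,
    isGeometricAction_compHom φ hker hidx hgeo⟩

theorem ker_mk'_finite {G : Type*} [Group G] (N : Subgroup G) [N.Normal]
    (hN : (N : Set G).Finite) : ((QuotientGroup.mk' N).ker : Set G).Finite := by
  rw [QuotientGroup.ker_mk']
  exact hN

theorem range_mk'_finiteIndex {G : Type*} [Group G] (N : Subgroup G) [N.Normal] :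
    (QuotientGroup.mk' N).range.FiniteIndex := by
  rw [QuotientGroup.range_mk']
  infer_instance

end Vale.Agent.Lib.P172
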