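import Vale.Agent.Lib.P172.FixedPoint
import Vale.Agent.Lib.P172.CompHom

/-!
# P172: the fixed set of a finite normal subgroup, and the induced action of the quotient
-/

namespace Vale.Agent.Lib.P172

open Set

variable {G X : Type*} [Group G] [MetricSpace X] [MulAction G X]

/-- The set of points fixed by every element of the subgroup `N`. -/
def fixedSet (N : Subgroup G) (X : Type*) [MulAction G X] : Set X :=
  {x | ∀ n ∈ N, n • x = x}

theorem fixedSet_isClosed (N : Subgroup G) (hiso : ∀ g : G, Isometry (fun x : X => g • x)) :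
    IsClosed (fixedSet N X) := by
  have : fixedSet N X = ⋂ n ∈ N, {x : X | n • x = x} := by
    ext x; simp [fixedSet]
  rw [this]
  exact isClosed_biInter fun n _ => isClosed_eq (hiso n).continuous continuous_id

omit [MetricSpace X] in
theorem fixedSet_smul_mem (N : Subgroup G) [N.Normal] {x : X} (hx : x ∈ fixedSet N X) (g : G) :
    g • x ∈ fixedSet N X := by
  intro n hn
  have h1 : g⁻¹ * n * g ∈ N := by
    have := Subgroup.Normal.conj_mem (inferInstance : N.Normal) n hn g⁻¹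
    simpa using this
  have h2 := hx _ h1
  calc n • g • x = g • (g⁻¹ * n * g) • x := by simp [mul_smul]
    _ = g • x := by rw [h2]

theorem isGeodesicFromTo_smul (hiso : ∀ g : G, Isometry (fun x : X => g • x)) (g : G)
    {γ : ℝ → X} {p q : X} (hγ : IsGeodesicFromTo γ p q) :
    IsGeodesicFromTo (fun s => g • γ s) (g • p) (g • q) := by
  have hd : dist (g • p) (g • q) = dist p q := (hiso g).dist_eq p q
  refine ⟨?_, ?_, ?_⟩
  · intro s hs t ht
    rw [hd] at hs ht
    rw [(hiso g).dist_eq]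
    exact hγ.1 s hs t ht
  · simp only [hγ.2.1]
  · simp only [hd, hγ.2.2]

theorem fixedSet_convex (N : Subgroup G) (hiso : ∀ g : G, Isometry (fun x : X => g • x))
    (huniq : UniqueGeodesics X) {p q : X} (hp : p ∈ fixedSet N X) (hq : q ∈ fixedSet N X)
    {γ : ℝ → X} (hγ : IsGeodesicFromTo γ p q) {s : ℝ} (hs : s ∈ Icc (0 : ℝ) (dist p q)) :
    γ s ∈ fixedSet N X := by
  intro n hn
  have h1 := isGeodesicFromTo_smul hiso n hγ
  rw [hp n hn, hq n hn] at h1
  exact huniq p q _ γ h1 hγ s hs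

/-- A subset which contains every geodesic segment between its points. -/
def GeodesicallyConvex (Y : Set X) : Prop :=
  ∀ p ∈ Y, ∀ q ∈ Y, ∀ γ : ℝ → X, IsGeodesicFromTo γ p q → ∀ s ∈ Icc (0 : ℝ) (dist p q), γ s ∈ Y

theorem isGeodesicSpace_subtype {Y : Set X} (hY : GeodesicallyConvex Y) (h : IsGeodesicSpace X) :
    IsGeodesicSpace Y := by
  classical
  intro p q
  obtain ⟨γ, hγ⟩ := h p.1 q.1
  have hd : dist p q = dist p.1 q.1 := rfl
  refine ⟨fun s => if hs : s ∈ Icc (0 : ℝ) (dist p.1 q.1) then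
    ⟨γ s, hY p.1 p.2 q.1 q.2 γ hγ s hs⟩ else p, ?_, ?_, ?_⟩
  · intro s hs t ht
    rw [hd] at hs ht
    simp only [dif_pos hs, dif_pos ht]
    exact hγ.1 s hs t ht
  · have h0 : (0 : ℝ) ∈ Icc (0 : ℝ) (dist p.1 q.1) := ⟨le_refl _, dist_nonneg⟩
    simp only [dif_pos h0]
    exact Subtype.ext hγ.2.1
  · have h1 : dist p q ∈ Icc (0 : ℝ) (dist p.1 q.1) := ⟨dist_nonneg, le_of_eq hd⟩
    simp only [dif_pos h1]
    exact Subtype.ext hγ.2.2

theorem isGeodesicFromTo_val {Y : Set X} {γ : ℝ → Y} {p q : Y} (hγ : IsGeodesicFromTo γ p q) :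
    IsGeodesicFromTo (fun s => (γ s : X)) (p : X) (q : X) := by
  have hd : dist p q = dist p.1 q.1 := rfl
  refine ⟨?_, ?_, ?_⟩
  · intro s hs t ht
    exact hγ.1 s hs t ht
  · exact congrArg Subtype.val hγ.2.1
  · exact congrArg Subtype.val hγ.2.2

theorem IsCAT0.subtype {Y : Set X} (hY : GeodesicallyConvex Y) (h : IsCAT0 X) : IsCAT0 Y := by
  refine ⟨isGeodesicSpace_subtype hY h.1, ?_⟩
  intro p q r γ₁ γ₂ h₁ h₂ s hs t ht
  exact h.2 p.1 q.1 r.1 _ _ (isGeodesicFromTo_val h₁) (isGeodesicFromTo_val h₂) s hs t ht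

theorem IsCATNegOne.subtype {Y : Set X} (hY : GeodesicallyConvex Y) (h : IsCATNegOne X) :
    IsCATNegOne Y := by
  refine ⟨isGeodesicSpace_subtype hY h.1, ?_⟩
  intro p q r γ₁ γ₂ h₁ h₂ s hs t ht
  exact h.2 p.1 q.1 r.1 _ _ (isGeodesicFromTo_val h₁) (isGeodesicFromTo_val h₂) s hs t ht

end Vale.Agent.Lib.P172
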