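import Vale.Agent.Lib.P172.Quotient

/-!
# P172: the action of `G ⧸ N` on the fixed set of a finite normal subgroup `N`
-/

namespace Vale.Agent.Lib.P172

open Set

variable {G X : Type*} [Group G] [MetricSpace X] [MulAction G X]

/-- `G` acts on the fixed set of a normal subgroup. -/
@[reducible] def fixedSetAction (N : Subgroup G) [N.Normal] : MulAction G (fixedSet N X) where
  smul g y := ⟨g • y.1, fixedSet_smul_mem N y.2 g⟩
  one_smul y := Subtype.ext (one_smul G y.1)
  mul_smul g h y := Subtype.ext (mul_smul g h y.1)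

/-- The permutation representation of `G` on the fixed set of `N`. -/
def fixedSetPermHom (N : Subgroup G) [N.Normal] : G →* Equiv.Perm (fixedSet N X) :=
  @MulAction.toPermHom G (fixedSet N X) _ (fixedSetAction N)

omit [MetricSpace X] in
theorem fixedSetPermHom_apply (N : Subgroup G) [N.Normal] (g : G) (y : fixedSet N X) :
    ((fixedSetPermHom N g y : fixedSet N X) : X) = g • (y : X) := rfl

omit [MetricSpace X] in
theorem le_ker_fixedSetPermHom (N : Subgroup G) [N.Normal] :
    N ≤ (fixedSetPermHom (X := X) N).ker := by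
  intro n hn
  rw [MonoidHom.mem_ker]
  ext y
  rw [fixedSetPermHom_apply]
  exact y.2 n hn

/-- `G ⧸ N` acts on the fixed set of the normal subgroup `N`. -/
@[reducible] def quotientAction (N : Subgroup G) [N.Normal] : MulAction (G ⧸ N) (fixedSet N X) :=
  MulAction.compHom _
    (QuotientGroup.lift N (fixedSetPermHom (X := X) N) (le_ker_fixedSetPermHom N))

omit [MetricSpace X] in
theorem quotientAction_mk (N : Subgroup G) [N.Normal] (g : G) (y : fixedSet N X) :
    ((@HSMul.hSMul (G ⧸ N) (fixedSet N X) (fixedSet N X)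
      (@instHSMul _ _ (quotientAction N).toSMul) (QuotientGroup.mk g) y : fixedSet N X) : X)
      = g • (y : X) := by
  show ((QuotientGroup.lift N (fixedSetPermHom (X := X) N) (le_ker_fixedSetPermHom N)
    (QuotientGroup.mk g)) y : X) = g • (y : X)
  rw [QuotientGroup.lift_mk]
  rfl

theorem isGeometricAction_quotient (N : Subgroup G) [N.Normal]
    (hclosed : IsClosed (fixedSet N X)) (h : IsGeometricAction G X) :
    @IsGeometricAction (G ⧸ N) (fixedSet N X) _ _ (quotientAction N) := by
  let _inst : MulAction (G ⧸ N) (fixedSet N X) := quotientAction N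
  obtain ⟨hiso, hprop, K, hK, hcov⟩ := h
  have hmk : ∀ (g : G) (y : fixedSet N X),
      (((QuotientGroup.mk g : G ⧸ N) • y : fixedSet N X) : X) = g • (y : X) :=
    fun g y => quotientAction_mk N g y
  refine ⟨?_, ?_, ?_⟩
  · intro q
    obtain ⟨g, rfl⟩ := QuotientGroup.mk_surjective q
    refine Isometry.of_dist_eq fun y₁ y₂ => ?_
    rw [Subtype.dist_eq, hmk, hmk, (hiso g).dist_eq]
    rfl
  · intro L hL
    have hL' : IsCompact (Subtype.val '' L) := hL.image continuous_subtype_val
    refine ((hprop _ hL').image (QuotientGroup.mk : G → G ⧸ N)).subset ?_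
    rintro q ⟨y, hy, hqy⟩
    obtain ⟨g, rfl⟩ := QuotientGroup.mk_surjective q
    refine ⟨g, ⟨y.1, ⟨y, hy, rfl⟩, ?_⟩, rfl⟩
    exact ⟨_, hqy, hmk g y⟩
  · refine ⟨Subtype.val ⁻¹' K, hclosed.isClosedEmbedding_subtypeVal.isCompact_preimage hK, ?_⟩
    intro y
    obtain ⟨g, hg⟩ := hcov y.1
    refine ⟨QuotientGroup.mk g, ?_⟩
    rw [mem_preimage, hmk]
    exact hg

/-- Key step (CAT(0) case): if `G` acts geometrically on a nonempty proper CAT(0) space and `N`
is a finite normal subgroup, then `G ⧸ N` acts geometrically on the (nonempty, proper, CAT(0))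
fixed set of `N`. -/
theorem isCAT0Group_quotient (N : Subgroup G) [N.Normal] (hN : (N : Set G).Finite)
    (h : IsCAT0Group G) : IsCAT0Group (G ⧸ N) := by
  obtain ⟨X, iM, iA, hne, hproper, hcat, hgeo⟩ := h
  have hiso := hgeo.1
  have hclosed : IsClosed (fixedSet N X) := fixedSet_isClosed N hiso
  have hconv : GeodesicallyConvex (fixedSet N X) := fun p hp q hq γ hγ s hs =>
    fixedSet_convex N hiso hcat.uniqueGeodesics hp hq hγ hs
  have hfin : Finite N := hN.to_subtype
  obtain ⟨y, hy⟩ := IsCAT0.exists_fixed_point (Γ := N) hcat (fun n => hiso (n : G))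
  have hy' : y ∈ fixedSet N X := fun n hn => hy ⟨n, hn⟩
  exact ⟨fixedSet N X, inferInstance, quotientAction N, ⟨⟨y, hy'⟩⟩,
    ProperSpace.of_isClosed hclosed, hcat.subtype hconv, isGeometricAction_quotient N hclosed hgeo⟩

/-- Key step (CAT(-1) case). -/
theorem isCATNegOneGroup_quotient (N : Subgroup G) [N.Normal] (hN : (N : Set G).Finite)
    (h : IsCATNegOneGroup G) : IsCATNegOneGroup (G ⧸ N) := by
  obtain ⟨X, iM, iA, hne, hproper, hcat, hgeo⟩ := h
  have hiso := hgeo.1
  have hclosed : IsClosed (fixedSet N X) := fixedSet_isClosed N hiso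
  have hconv : GeodesicallyConvex (fixedSet N X) := fun p hp q hq γ hγ s hs =>
    fixedSet_convex N hiso hcat.uniqueGeodesics hp hq hγ hs
  have hfin : Finite N := hN.to_subtype
  obtain ⟨y, hy⟩ := IsCATNegOne.exists_fixed_point (Γ := N) hcat (fun n => hiso (n : G))
  have hy' : y ∈ fixedSet N X := fun n hn => hy ⟨n, hn⟩
  exact ⟨fixedSet N X, inferInstance, quotientAction N, ⟨⟨y, hy'⟩⟩,
    ProperSpace.of_isClosed hclosed, hcat.subtype hconv, isGeometricAction_quotient N hclosed hgeo⟩

end Vale.Agent.Lib.P172
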